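import Mathlib.RingTheory.Derivation.Basic
import Mathlib.RingTheory.Ideal.Operations
import Mathlib.RingTheory.Ideal.Prime
import Mathlib.Data.Complex.Basic
import Mathlib.Algebra.BigOperators.Group.Multiset.Basic
import Mathlib.Algebra.Order.BigOperators.Group.List
import Mathlib.Tactic.Linarith
import Mathlib.Tactic.Ring
import Mathlib.Tactic.Positivity

/-! Iterated derivatives along words, the ideals of weighted order along an ideal `q`,
and the independence of monomials in a transversal system. -/

namespace Vale.Agent.P021Z.Mult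

variable {A : Type*} [CommRing A] [Algebra ℂ A] {ι : Type*}

/-- Apply the derivations of a word one after the other, the head of the word first. -/
def dword (D : ι → Derivation ℂ A A) : List ι → A → A
  | [], f => f
  | i :: l, f => dword D l (D i f)

@[simp] theorem dword_nil (D : ι → Derivation ℂ A A) (f : A) : dword D [] f = f := rfl

@[simp] theorem dword_cons (D : ι → Derivation ℂ A A) (i : ι) (l : List ι) (f : A) :
    dword D (i :: l) f = dword D l (D i f) := rfl

theorem dword_zero (D : ι → Derivation ℂ A A) (l : List ι) : dword D l 0 = 0 := by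
  induction l with
  | nil => rfl
  | cons i l ih => simp [ih]

theorem dword_add (D : ι → Derivation ℂ A A) (l : List ι) (f g : A) :
    dword D l (f + g) = dword D l f + dword D l g := by
  induction l generalizing f g with
  | nil => rfl
  | cons i l ih => simp [ih]

theorem dword_sub (D : ι → Derivation ℂ A A) (l : List ι) (f g : A) :
    dword D l (f - g) = dword D l f - dword D l g := by
  induction l generalizing f g with
  | nil => rfl
  | cons i l ih => simp [ih]

theorem dword_smul (D : ι → Derivation ℂ A A) (l : List ι) (c : ℂ) (f : A) :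
    dword D l (c • f) = c • dword D l f := by
  induction l generalizing f with
  | nil => rfl
  | cons i l ih => simp [ih]

theorem dword_sum (D : ι → Derivation ℂ A A) (l : List ι) {κ : Type*} (s : Finset κ)
    (f : κ → A) : dword D l (∑ k ∈ s, f k) = ∑ k ∈ s, dword D l (f k) := by
  classical
  induction s using Finset.induction_on with
  | empty => simp [dword_zero]
  | insert a s ha ih => rw [Finset.sum_insert ha, Finset.sum_insert ha, dword_add, ih]

theorem dword_append (D : ι → Derivation ℂ A A) (l l' : List ι) (f : A) :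
    dword D (l ++ l') f = dword D l' (dword D l f) := by
  induction l generalizing f with
  | nil => rfl
  | cons i l ih => simp [ih]

/-- All derivatives of `f` along words of weight less than `b` lie in `q`. -/
def InJet (D : ι → Derivation ℂ A A) (v : ι → ℝ) (q : Ideal A) (b : ℝ) (f : A) : Prop :=
  ∀ l : List ι, (l.map v).sum < b → dword D l f ∈ q

variable {D : ι → Derivation ℂ A A} {v : ι → ℝ} {q : Ideal A}

theorem InJet.deriv {b : ℝ} {f : A} (hf : InJet D v q b f) (i : ι) :
    InJet D v q (b - v i) (D i f) := by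
  intro l hl
  apply hf (i :: l)
  simp only [List.map_cons, List.sum_cons]
  linarith

theorem InJet.dword {b : ℝ} {f : A} (hf : InJet D v q b f) (l : List ι) :
    InJet D v q (b - (l.map v).sum) (dword D l f) := by
  intro l' hl
  rw [← dword_append]
  apply hf
  simp only [List.map_append, List.sum_append]
  linarith

theorem InJet.mono {b b' : ℝ} {f : A} (hf : InJet D v q b f) (h : b' ≤ b) :
    InJet D v q b' f := fun l hl => hf l (hl.trans_le h)

theorem InJet.mem {b : ℝ} {f : A} (hf : InJet D v q b f) (h : 0 < b) : f ∈ q :=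
  hf [] (by simpa using h)

theorem sum_map_nonneg (hv : ∀ i, 0 ≤ v i) (l : List ι) : 0 ≤ (l.map v).sum := by
  induction l with
  | nil => simp
  | cons i l ih =>
    simp only [List.map_cons, List.sum_cons]
    exact add_nonneg (hv i) ih

theorem inJet_of_nonpos (hv : ∀ i, 0 ≤ v i) {b : ℝ} (hb : b ≤ 0) (f : A) : InJet D v q b f :=
  fun l hl => absurd (hl.trans_le hb) (not_lt.mpr (sum_map_nonneg hv l))

theorem InJet.mul {b b' : ℝ} {f g : A} (hf : InJet D v q b f) (hg : InJet D v q b' g) :
    InJet D v q (b + b') (f * g) := by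
  intro l
  induction l generalizing f g b b' with
  | nil =>
    intro hl
    simp only [List.map_nil, List.sum_nil] at hl
    by_cases hb : 0 < b
    · exact q.mul_mem_right _ (hf.mem hb)
    · exact q.mul_mem_left _ (hg.mem (by linarith))
  | cons i l ih =>
    intro hl
    simp only [List.map_cons, List.sum_cons] at hl
    rw [dword_cons, Derivation.leibniz, smul_eq_mul, smul_eq_mul, dword_add]
    refine q.add_mem (ih hf (hg.deriv i) (by linarith)) ?_
    exact ih hg (hf.deriv i) (by linarith)

/-- The ideal of the elements of weighted order at least `b` along `q`. -/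
def jet (D : ι → Derivation ℂ A A) (v : ι → ℝ) (hv : ∀ i, 0 ≤ v i) (q : Ideal A) (b : ℝ) :
    Ideal A where
  carrier := {f | InJet D v q b f}
  zero_mem' := by
    intro l _
    simp [dword_zero]
  add_mem' := by
    intro f g hf hg l hl
    rw [dword_add]
    exact q.add_mem (hf l hl) (hg l hl)
  smul_mem' := by
    intro c f hf
    have h := (inJet_of_nonpos (D := D) (q := q) hv le_rfl c).mul hf
    rw [zero_add] at h
    exact h

theorem mem_jet {hv : ∀ i, 0 ≤ v i} {b : ℝ} {f : A} : f ∈ jet D v hv q b ↔ InJet D v q b f :=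
  Iff.rfl

theorem jet_mul_le (hv : ∀ i, 0 ≤ v i) (b b' : ℝ) :
    jet D v hv q b * jet D v hv q b' ≤ jet D v hv q (b + b') :=
  Ideal.mul_le.mpr fun _ hf _ hg => InJet.mul hf hg

theorem jet_anti (hv : ∀ i, 0 ≤ v i) {b b' : ℝ} (h : b' ≤ b) :
    jet D v hv q b ≤ jet D v hv q b' := fun _ hf => InJet.mono hf h

theorem jet_of_nonpos (hv : ∀ i, 0 ≤ v i) {b : ℝ} (hb : b ≤ 0) : jet D v hv q b = ⊤ :=
  eq_top_iff.mpr fun f _ => inJet_of_nonpos hv hb f

theorem inJet_of_mem {β : ℝ} (hv : ∀ i, 0 ≤ v i) (hβ : ∀ i, β ≤ v i) {f : A} (hf : f ∈ q) :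
    InJet D v q β f := by
  intro l hl
  cases l with
  | nil => exact hf
  | cons i l =>
    simp only [List.map_cons, List.sum_cons] at hl
    have h1 := sum_map_nonneg hv l
    have h2 := hβ i
    linarith

theorem pow_le_jet {β : ℝ} (hv : ∀ i, 0 ≤ v i) (hβ : ∀ i, β ≤ v i) (n : ℕ) :
    q ^ n ≤ jet D v hv q (n * β) := by
  induction n with
  | zero => rw [jet_of_nonpos hv (by simp)]; exact le_top
  | succ n ih =>
    rw [pow_succ]
    have h1 : q ≤ jet D v hv q β := fun f hf => inJet_of_mem hv hβ hf
    refine le_trans (Ideal.mul_mono ih h1) ?_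
    refine le_trans (jet_mul_le hv _ _) (le_of_eq ?_)
    congr 1
    push_cast
    ring

/-- A derivative of order less than `n` of an element of `q ^ n` lies in `q`. -/
theorem dword_mem_of_mem_pow {n : ℕ} {f : A} (hf : f ∈ q ^ n) (l : List ι) (hl : l.length < n) :
    dword D l f ∈ q := by
  have h := pow_le_jet (D := D) (v := fun _ => (1 : ℝ)) (q := q) (β := 1)
    (fun _ => zero_le_one) (fun _ => le_rfl) n hf
  apply h l
  simp only [List.map_const', List.sum_replicate, nsmul_eq_mul, mul_one]
  exact_mod_cast hl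

section Transversal

variable [DecidableEq ι] {I : Set ι} {g : ι → A}

omit [Algebra ℂ A] [DecidableEq ι] in
theorem prod_mem_pow (hg : ∀ i ∈ I, g i ∈ q) (s : Multiset ι) (hs : ∀ i ∈ s, i ∈ I) :
    (s.map g).prod ∈ q ^ s.card := by
  induction s using Multiset.induction_on with
  | empty => simp
  | cons k s ih =>
    rw [Multiset.map_cons, Multiset.prod_cons, Multiset.card_cons, pow_succ']
    exact Ideal.mul_mem_mul (hg k (hs k (Multiset.mem_cons_self _ _)))
      (ih fun i hi => hs i (Multiset.mem_cons_of_mem hi))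

theorem deriv_prod_sub_mem (hg : ∀ i ∈ I, g i ∈ q)
    (hoff : ∀ i ∈ I, ∀ k ∈ I, i ≠ k → D i (g k) ∈ q) {i : ι} (hi : i ∈ I)
    (s : Multiset ι) (hs : ∀ k ∈ s, k ∈ I) :
    D i (s.map g).prod - (s.count i : A) * D i (g i) * ((s.erase i).map g).prod
      ∈ q ^ s.card := by
  induction s using Multiset.induction_on with
  | empty => simp
  | cons k s ih =>
    have hk : k ∈ I := hs k (Multiset.mem_cons_self _ _)
    have hs' : ∀ k ∈ s, k ∈ I := fun j hj => hs j (Multiset.mem_cons_of_mem hj)
    have ih' := Ideal.mul_mem_mul (hg k hk) (ih hs')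
    rw [← pow_succ'] at ih'
    rw [Multiset.map_cons, Multiset.prod_cons, Multiset.card_cons, Derivation.leibniz,
      smul_eq_mul, smul_eq_mul]
    by_cases hki : k = i
    · subst hki
      rw [Multiset.count_cons_self, Multiset.erase_cons_head]
      by_cases hks : k ∈ s
      · have e : (s.map g).prod = g k * ((s.erase k).map g).prod := by
          conv_lhs => rw [← Multiset.cons_erase hks]
          rw [Multiset.map_cons, Multiset.prod_cons]
        convert ih' using 1
        push_cast
        rw [mul_sub, mul_comm (g k) (_ * _ * _), mul_assoc (_ * _) _ (g k),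
          mul_comm _ (g k), ← e]
        ring
      · rw [Multiset.count_eq_zero_of_notMem hks] at ih' ⊢
        convert ih' using 1
        push_cast
        ring
    · rw [Multiset.count_cons_of_ne (Ne.symm hki), Multiset.erase_cons_tail _ hki,
        Multiset.map_cons, Multiset.prod_cons]
      have h2 := Ideal.mul_mem_mul (prod_mem_pow hg s hs') (hoff i hi k hk (Ne.symm hki))
      rw [← pow_succ] at h2
      convert (q ^ (s.card + 1)).add_mem ih' h2 using 1
      ring

theorem deriv_mul_prod_sub_mem (hg : ∀ i ∈ I, g i ∈ q)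
    (hoff : ∀ i ∈ I, ∀ k ∈ I, i ≠ k → D i (g k) ∈ q) {i : ι} (hi : i ∈ I)
    (s : Multiset ι) (hs : ∀ k ∈ s, k ∈ I) (u : A) :
    D i (u * (s.map g).prod) - (u * (s.count i : A) * D i (g i)) * ((s.erase i).map g).prod
      ∈ q ^ s.card := by
  have h1 := (q ^ s.card).mul_mem_left u (deriv_prod_sub_mem hg hoff hi s hs)
  have h2 := (q ^ s.card).mul_mem_right (D i u) (prod_mem_pow hg s hs)
  rw [Derivation.leibniz, smul_eq_mul, smul_eq_mul]
  convert (q ^ s.card).add_mem h1 h2 using 1
  ring

/-- A word kills, modulo `q`, every other monomial of at least the same degree. -/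
theorem dword_mul_prod_mem (hg : ∀ i ∈ I, g i ∈ q)
    (hoff : ∀ i ∈ I, ∀ k ∈ I, i ≠ k → D i (g k) ∈ q) (l : List ι) (hl : ∀ i ∈ l, i ∈ I)
    (s : Multiset ι) (hs : ∀ k ∈ s, k ∈ I) (hlen : l.length ≤ s.card)
    (hne : s ≠ (l : Multiset ι)) (u : A) : dword D l (u * (s.map g).prod) ∈ q := by
  induction l generalizing s u with
  | nil =>
    have hc : s.card ≠ 0 := fun h => hne (by simpa using h)
    exact q.mul_mem_left _ (Ideal.pow_le_self hc (prod_mem_pow hg s hs))
  | cons i l ih =>
    have hi : i ∈ I := hl i List.mem_cons_self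
    have hl' : ∀ k ∈ l, k ∈ I := fun k hk => hl k (List.mem_cons_of_mem _ hk)
    rw [List.length_cons] at hlen
    have h1 := dword_mem_of_mem_pow (D := D) (deriv_mul_prod_sub_mem hg hoff hi s hs u) l
      (by omega)
    rw [dword_sub] at h1
    rw [dword_cons]
    refine (q.sub_mem_iff_left ?_).mp h1
    by_cases his : i ∈ s
    · apply ih hl' (s.erase i) (fun k hk => hs k (Multiset.mem_of_mem_erase hk))
      · rw [Multiset.card_erase_of_mem his]
        simp only [Nat.pred_eq_sub_one]
        omega
      · intro h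
        apply hne
        rw [← Multiset.cons_erase his, h, Multiset.cons_coe]
    · rw [Multiset.count_eq_zero_of_notMem his]
      simp [dword_zero]

/-- A word does not kill, modulo `q`, its own monomial. -/
theorem dword_mul_prod_notMem [hq : q.IsPrime] (hg : ∀ i ∈ I, g i ∈ q)
    (hd : ∀ i ∈ I, D i (g i) ∉ q)
    (hoff : ∀ i ∈ I, ∀ k ∈ I, i ≠ k → D i (g k) ∈ q) (l : List ι) (hl : ∀ i ∈ l, i ∈ I)
    (u : A) (hu : u ∉ q) : dword D l (u * ((l : Multiset ι).map g).prod) ∉ q := by
  induction l generalizing u with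
  | nil => simpa using hu
  | cons i l ih =>
    have hi : i ∈ I := hl i List.mem_cons_self
    have hl' : ∀ k ∈ l, k ∈ I := fun k hk => hl k (List.mem_cons_of_mem _ hk)
    have h1 := dword_mem_of_mem_pow (D := D)
      (deriv_mul_prod_sub_mem hg hoff hi ((i :: l : List ι) : Multiset ι)
        (fun k hk => hl k (by simpa using hk)) u) l (by simp)
    rw [dword_sub] at h1
    rw [dword_cons]
    intro h
    have h2 := (q.sub_mem_iff_right h).mp h1
    rw [← Multiset.cons_coe, Multiset.erase_cons_head, Multiset.count_cons_self] at h2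
    refine ih hl' _ ?_ h2
    intro h3
    rcases hq.mem_or_mem h3 with h4 | h4
    · rcases hq.mem_or_mem h4 with h5 | h5
      · exact hu h5
      · apply hq.ne_top
        refine q.eq_top_of_isUnit_mem h5 ?_
        have : ((Multiset.count i (l : Multiset ι) + 1 : ℕ) : A) =
            algebraMap ℂ A ((Multiset.count i (l : Multiset ι) + 1 : ℕ) : ℂ) := by
          rw [map_natCast]
        rw [this]
        exact (IsUnit.mk0 _ (Nat.cast_ne_zero.mpr (Nat.succ_ne_zero _))).map _
    · exact hd i hi h4

/-- Independence of the monomials in a transversal system modulo the ideal of order `b`,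
over coefficients that meet `q` only in zero. -/
theorem coeff_eq_zero_of_inJet [hq : q.IsPrime] (hg : ∀ i ∈ I, g i ∈ q)
    (hd : ∀ i ∈ I, D i (g i) ∉ q)
    (hoff : ∀ i ∈ I, ∀ k ∈ I, i ≠ k → D i (g k) ∈ q) {κ : Type*} (Γ : Finset κ)
    (ms : κ → Multiset ι) (hinj : Set.InjOn ms Γ) (hI : ∀ γ ∈ Γ, ∀ i ∈ ms γ, i ∈ I) {b : ℝ}
    (hb : ∀ γ ∈ Γ, ((ms γ).map v).sum < b) (r : κ → A) (hr : ∀ γ ∈ Γ, r γ ∈ q → r γ = 0)
    (h : InJet D v q b (∑ γ ∈ Γ, r γ * ((ms γ).map g).prod)) : ∀ γ ∈ Γ, r γ = 0 := by
  classical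
  by_contra hcon
  have hne : (Γ.filter fun γ => r γ ≠ 0).Nonempty := by
    push Not at hcon
    obtain ⟨γ, h1, h2⟩ := hcon
    exact ⟨γ, Finset.mem_filter.mpr ⟨h1, h2⟩⟩
  obtain ⟨γ₀, hγ₀, hmin⟩ := Finset.exists_min_image _ (fun γ => (ms γ).card) hne
  obtain ⟨hγ₀Γ, hr₀⟩ := Finset.mem_filter.mp hγ₀
  set l := (ms γ₀).toList with hl
  have hlm : (l : Multiset ι) = ms γ₀ := Multiset.coe_toList _
  have hlI : ∀ i ∈ l, i ∈ I := fun i hi => hI γ₀ hγ₀Γ i (by rw [← hlm]; simpa using hi)
  have h1 : dword D l (∑ γ ∈ Γ, r γ * ((ms γ).map g).prod) ∈ q := by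
    apply h
    have := hb γ₀ hγ₀Γ
    rw [← hlm] at this
    simpa using this
  rw [dword_sum, ← Finset.add_sum_erase Γ _ hγ₀Γ] at h1
  have h2 : ∑ γ ∈ Γ.erase γ₀, dword D l (r γ * ((ms γ).map g).prod) ∈ q := by
    refine Submodule.sum_mem _ fun γ hγ => ?_
    obtain ⟨hγ1, hγ2⟩ := Finset.mem_erase.mp hγ
    by_cases hz : r γ = 0
    · simp [hz, dword_zero]
    · apply dword_mul_prod_mem hg hoff l hlI _ (hI γ hγ2)
      · have := hmin γ (Finset.mem_filter.mpr ⟨hγ2, hz⟩)
        rw [← hlm] at this
        simpa using this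
      · rw [hlm]
        exact fun e => hγ1 (hinj hγ2 hγ₀Γ e)
  have h3 := (q.add_mem_iff_left h2).mp h1
  rw [← hlm] at h3
  exact dword_mul_prod_notMem hg hd hoff l hlI _ (fun hh => hr₀ (hr γ₀ hγ₀Γ hh)) h3

end Transversal

end Vale.Agent.P021Z.Mult
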