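import Mathlib.Algebra.MvPolynomial.Supported
import Mathlib.Algebra.MvPolynomial.NoZeroDivisors
import Mathlib.RingTheory.Algebraic.Integral
import Mathlib.RingTheory.Ideal.MinimalPrime.Localization
import Mathlib.Data.Finsupp.Weight
import Mathlib.Algebra.Order.Archimedean.Real.Basic
import Mathlib.Tactic.FieldSimp
import Mathlib.Tactic.LinearCombination
import Vale.Agent.P021Z.Mult.Jet

/-! Polynomials of bounded weighted degree span the quotient by the ideals of weighted order,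
up to torsion over the polynomial ring in a transcendence basis. -/

namespace Vale.Agent.P021Z.Mult

open MvPolynomial

variable {σ : Type*}

/-- The polynomials in the variables of `B`. -/
noncomputable abbrev Base (B : Finset σ) : Subalgebra ℂ (MvPolynomial σ ℂ) :=
  supported ℂ (B : Set σ)

/-- All monomials of `f` have weight at most `a`. -/
def Deg (w : σ → ℝ) (a : ℝ) (f : MvPolynomial σ ℂ) : Prop :=
  ∀ α ∈ f.support, Finsupp.weight w α ≤ a

variable {w : σ → ℝ}

theorem deg_zero (a : ℝ) : Deg w a 0 := by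
  intro α hα
  simp at hα

theorem Deg.mono {a a' : ℝ} {f : MvPolynomial σ ℂ} (hf : Deg w a f) (h : a ≤ a') : Deg w a' f :=
  fun α hα => (hf α hα).trans h

theorem Deg.add {a : ℝ} {f g : MvPolynomial σ ℂ} (hf : Deg w a f) (hg : Deg w a g) :
    Deg w a (f + g) := by
  classical
  intro α hα
  rcases Finset.mem_union.mp (support_add hα) with h | h
  · exact hf α h
  · exact hg α h

theorem Deg.mul {a a' : ℝ} {f g : MvPolynomial σ ℂ} (hf : Deg w a f) (hg : Deg w a' g) :
    Deg w (a + a') (f * g) := by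
  classical
  intro α hα
  obtain ⟨β, hβ, γ, hγ, rfl⟩ := Finset.mem_add.mp (support_mul f g hα)
  rw [map_add]
  exact add_le_add (hf β hβ) (hg γ hγ)

theorem exists_deg (w : σ → ℝ) (f : MvPolynomial σ ℂ) : ∃ a, Deg w a f := by
  obtain ⟨a, ha⟩ := (f.support.image (Finsupp.weight w)).bddAbove
  exact ⟨a, fun α hα => ha (Finset.mem_coe.mpr (Finset.mem_image_of_mem _ hα))⟩

theorem exists_deg_finset (w : σ → ℝ) {κ : Type*} (t : Finset κ) (f : κ → MvPolynomial σ ℂ) :
    ∃ a, ∀ z ∈ t, Deg w a (f z) := by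
  classical
  choose a ha using fun z => exists_deg w (f z)
  obtain ⟨c, hc⟩ := (t.image a).bddAbove
  exact ⟨c, fun z hz => (ha z).mono (hc (Finset.mem_coe.mpr (Finset.mem_image_of_mem _ hz)))⟩

variable {B : Finset σ}

theorem deg_of_mem_base (hw : ∀ i ∈ B, w i = 0) {u : MvPolynomial σ ℂ} (hu : u ∈ Base B) :
    Deg w 0 u := by
  classical
  intro α hα
  rw [mem_supported] at hu
  rw [Finsupp.weight_apply, Finsupp.sum]
  refine le_of_eq (Finset.sum_eq_zero fun i hi => ?_)
  have : i ∈ u.vars := (mem_vars_iff_mem_support i).mpr ⟨α, hα, hi⟩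
  rw [hw i (Finset.mem_coe.mp (hu (Finset.mem_coe.mpr this))), smul_zero]

theorem Deg.base_mul (hw : ∀ i ∈ B, w i = 0) {a : ℝ} {u f : MvPolynomial σ ℂ} (hu : u ∈ Base B)
    (hf : Deg w a f) : Deg w a (u * f) := by
  have h := (deg_of_mem_base hw hu).mul hf
  rwa [zero_add] at h

/-- The polynomials of weight at most `a`, as a module over the polynomials in `B`. -/
def degSub (w : σ → ℝ) (B : Finset σ) (hw : ∀ i ∈ B, w i = 0) (a : ℝ) :
    Submodule (Base B) (MvPolynomial σ ℂ) where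
  carrier := {f | Deg w a f}
  zero_mem' := deg_zero a
  add_mem' := Deg.add
  smul_mem' := fun c _ hf => Deg.base_mul hw c.2 hf

section Alg

variable [DecidableEq σ]

theorem isAlgebraic_X (𝔞 : Ideal (MvPolynomial σ ℂ))
    (halg : ∀ l ∉ B, ∃ f ∈ 𝔞, f ≠ 0 ∧ f.vars ⊆ insert l B) (l : σ) :
    IsAlgebraic (Base B) (Ideal.Quotient.mkₐ (Base B) 𝔞 (X l)) := by
  by_cases hl : l ∈ B
  · have hX : (X l : MvPolynomial σ ℂ) ∈ Base B := X_mem_supported.mpr (Finset.mem_coe.mpr hl)
    have : Ideal.Quotient.mkₐ (Base B) 𝔞 (X l) = algebraMap (Base B) _ ⟨X l, hX⟩ := rfl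
    rw [this]
    exact isAlgebraic_algebraMap _
  · obtain ⟨f, hf, hf0, hv⟩ := halg l hl
    have h1 : f ∈ supported ℂ ((insert l B : Finset σ) : Set σ) :=
      mem_supported.mpr (Finset.coe_subset.mpr hv)
    have h2 : supported ℂ ((insert l B : Finset σ) : Set σ) ≤
        (Algebra.adjoin (Base B) {(X l : MvPolynomial σ ℂ)}).restrictScalars ℂ := by
      rw [supported_eq_adjoin_X, Algebra.adjoin_le_iff]
      rintro _ ⟨i, hi, rfl⟩
      rcases Finset.mem_insert.mp (Finset.mem_coe.mp hi) with rfl | hi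
      · rw [SetLike.mem_coe, Subalgebra.mem_restrictScalars]
        exact Algebra.subset_adjoin (Set.mem_singleton _)
      · have hX : (X i : MvPolynomial σ ℂ) ∈ Base B := X_mem_supported.mpr (Finset.mem_coe.mpr hi)
        rw [SetLike.mem_coe, Subalgebra.mem_restrictScalars]
        exact Subalgebra.algebraMap_mem (Algebra.adjoin (Base B) {(X l : MvPolynomial σ ℂ)})
          ⟨X i, hX⟩
    have h3 := h2 h1
    rw [Subalgebra.mem_restrictScalars, Algebra.adjoin_singleton_eq_range_aeval] at h3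
    obtain ⟨p, hp⟩ := h3
    have hp' : Polynomial.aeval (X l : MvPolynomial σ ℂ) p = f := hp
    refine ⟨p, ?_, ?_⟩
    · rintro rfl
      exact hf0 (by rw [← hp', map_zero])
    · rw [Polynomial.aeval_algHom_apply, hp']
      exact Ideal.Quotient.eq_zero_iff_mem.mpr hf

theorem isAlgebraic_mk (𝔞 : Ideal (MvPolynomial σ ℂ))
    (halg : ∀ l ∉ B, ∃ f ∈ 𝔞, f ≠ 0 ∧ f.vars ⊆ insert l B) (x : MvPolynomial σ ℂ) :
    IsAlgebraic (Base B) (Ideal.Quotient.mkₐ (Base B) 𝔞 x) := by
  induction x using MvPolynomial.induction_on with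
  | C a =>
    have : Ideal.Quotient.mkₐ (Base B) 𝔞 (C a) =
        algebraMap (Base B) _ ⟨C a, (Base B).algebraMap_mem a⟩ := rfl
    rw [this]
    exact isAlgebraic_algebraMap _
  | add p q hp hq => rw [map_add]; exact hp.add hq
  | mul_X p n hp => rw [map_mul]; exact hp.mul (isAlgebraic_X 𝔞 halg n)

/-- An element outside `q` is invertible modulo each power of `q`, up to a nonzero scalar. -/
theorem exists_inv (q : Ideal (MvPolynomial σ ℂ)) [hq : q.IsPrime]
    (halg : ∀ l ∉ B, ∃ f ∈ q, f ≠ 0 ∧ f.vars ⊆ insert l B) {h : MvPolynomial σ ℂ} (hh : h ∉ q)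
    (N : ℕ) : ∃ h', ∃ u ∈ Base B, u ≠ 0 ∧ h * h' - u ∈ q ^ N := by
  have h0 : Ideal.Quotient.mkₐ (Base B) q h ≠ 0 :=
    fun e => hh (Ideal.Quotient.eq_zero_iff_mem.mp e)
  obtain ⟨r, hr, c, hc⟩ :=
    (isAlgebraic_mk q halg h).exists_nonzero_dvd (mem_nonZeroDivisors_of_ne_zero h0)
  obtain ⟨c, rfl⟩ := Ideal.Quotient.mk_surjective c
  have h1 : (r : MvPolynomial σ ℂ) - h * c ∈ q := by
    rw [← Ideal.Quotient.eq, map_mul]
    exact hc
  obtain ⟨d, hd⟩ := sub_dvd_pow_sub_pow (r : MvPolynomial σ ℂ) (r - h * c) N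
  refine ⟨c * d, (r : MvPolynomial σ ℂ) ^ N, (Base B).pow_mem r.2 N,
    pow_ne_zero _ (fun e => hr (Subtype.ext e)), ?_⟩
  have : h * (c * d) - (r : MvPolynomial σ ℂ) ^ N = -((r : MvPolynomial σ ℂ) - h * c) ^ N := by
    linear_combination -hd
  rw [this]
  exact (q ^ N).neg_mem (Ideal.pow_mem_pow h1 N)

end Alg

/-- A nonzero multiple of `x` by a polynomial in `B` is congruent modulo `𝔞` to a polynomial
of weight at most `a`. -/
def Good (w : σ → ℝ) (B : Finset σ) (a : ℝ) (𝔞 : Ideal (MvPolynomial σ ℂ))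
    (x : MvPolynomial σ ℂ) : Prop :=
  ∃ u ∈ Base B, u ≠ 0 ∧ ∃ y, Deg w a y ∧ u * x - y ∈ 𝔞

variable {a : ℝ} {𝔞 : Ideal (MvPolynomial σ ℂ)}

theorem good_of_mem {x : MvPolynomial σ ℂ} (hx : x ∈ 𝔞) : Good w B a 𝔞 x :=
  ⟨1, (Base B).one_mem, one_ne_zero, 0, deg_zero a, by simpa using hx⟩

theorem good_of_deg {x : MvPolynomial σ ℂ} (hx : Deg w a x) : Good w B a 𝔞 x :=
  ⟨1, (Base B).one_mem, one_ne_zero, x, hx, by simp⟩

theorem Good.mono {a' : ℝ} {x : MvPolynomial σ ℂ} (hx : Good w B a 𝔞 x) (h : a ≤ a') :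
    Good w B a' 𝔞 x := by
  obtain ⟨u, hu, hu0, y, hy, hm⟩ := hx
  exact ⟨u, hu, hu0, y, hy.mono h, hm⟩

theorem Good.add (hw : ∀ i ∈ B, w i = 0) {x x' : MvPolynomial σ ℂ} (hx : Good w B a 𝔞 x)
    (hx' : Good w B a 𝔞 x') : Good w B a 𝔞 (x + x') := by
  obtain ⟨u, hu, hu0, y, hy, hm⟩ := hx
  obtain ⟨u', hu', hu0', y', hy', hm'⟩ := hx'
  refine ⟨u * u', (Base B).mul_mem hu hu', mul_ne_zero hu0 hu0', u' * y + u * y',
    (hy.base_mul hw hu').add (hy'.base_mul hw hu), ?_⟩
  convert 𝔞.add_mem (𝔞.mul_mem_left u' hm) (𝔞.mul_mem_left u hm') using 1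
  ring

theorem Good.of_mul {u x : MvPolynomial σ ℂ} (hu : u ∈ Base B) (hu0 : u ≠ 0)
    (hx : Good w B a 𝔞 (u * x)) : Good w B a 𝔞 x := by
  obtain ⟨u', hu', hu0', y, hy, hm⟩ := hx
  exact ⟨u' * u, (Base B).mul_mem hu' hu, mul_ne_zero hu0' hu0, y, hy, by rwa [mul_assoc]⟩

theorem Good.mul_gen {D : σ → Derivation ℂ (MvPolynomial σ ℂ) (MvPolynomial σ ℂ)} {v : σ → ℝ}
    {hv : ∀ i, 0 ≤ v i} {q : Ideal (MvPolynomial σ ℂ)} {b a' b' : ℝ} {x f : MvPolynomial σ ℂ}
    (hx : Good w B a (jet D v hv q b) x) (hf : Deg w a' f) (hf' : InJet D v q b' f) :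
    Good w B (a + a') (jet D v hv q (b + b')) (x * f) := by
  obtain ⟨u, hu, hu0, y, hy, hm⟩ := hx
  refine ⟨u, hu, hu0, y * f, hy.mul hf, ?_⟩
  have h := InJet.mul (mem_jet.mp hm) hf'
  rw [mem_jet]
  convert h using 1
  ring

section Fin

variable [Fintype σ] [DecidableEq σ]

/-- If every variable is algebraic modulo `𝔞`, a bounded weight suffices. -/
theorem exists_good (hw : ∀ i ∈ B, w i = 0) (𝔞 : Ideal (MvPolynomial σ ℂ))
    (halg : ∀ l ∉ B, ∃ f ∈ 𝔞, f ≠ 0 ∧ f.vars ⊆ insert l B) : ∃ c, ∀ x, Good w B c 𝔞 x := by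
  classical
  choose y hy hint using fun l => (isAlgebraic_X 𝔞 halg l).exists_integral_multiple
  set π := Ideal.Quotient.mkₐ (Base B) 𝔞 with hπ
  set y₀ : Base B := ∏ l, y l with hy₀
  have hy₀0 : y₀ ≠ 0 := Finset.prod_ne_zero_iff.mpr fun l _ => hy l
  have hint₀ : ∀ l, IsIntegral (Base B) (y₀ • π (X l)) := by
    intro l
    rw [hy₀, ← Finset.prod_erase_mul _ _ (Finset.mem_univ l), mul_smul]
    exact (hint l).smul _
  set T := Algebra.adjoin (Base B) (Set.range fun l => y₀ • π (X l)) with hT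
  have hfg : T.toSubmodule.FG :=
    fg_adjoin_of_finite (Set.finite_range _) (by rintro _ ⟨l, rfl⟩; exact hint₀ l)
  have hN : ∀ x, ∃ N : ℕ, y₀ ^ N • π x ∈ T := by
    intro x
    induction x using MvPolynomial.induction_on with
    | C a =>
      refine ⟨0, ?_⟩
      rw [pow_zero, one_smul]
      exact T.algebraMap_mem ⟨C a, (Base B).algebraMap_mem a⟩
    | add p q hp hq =>
      obtain ⟨N, hN⟩ := hp
      obtain ⟨M, hM⟩ := hq
      refine ⟨N + M, ?_⟩
      rw [map_add, smul_add]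
      refine T.add_mem ?_ ?_
      · rw [pow_add, mul_comm, mul_smul]
        exact T.smul_mem hN _
      · rw [pow_add, mul_smul]
        exact T.smul_mem hM _
    | mul_X p n hp =>
      obtain ⟨N, hN⟩ := hp
      refine ⟨N + 1, ?_⟩
      rw [map_mul, pow_succ, ← smul_mul_smul_comm]
      exact T.mul_mem hN (Algebra.subset_adjoin ⟨n, rfl⟩)
  obtain ⟨t, ht⟩ := hfg
  choose s hs using fun z => Ideal.Quotient.mkₐ_surjective (Base B) 𝔞 z
  obtain ⟨c, hc⟩ := exists_deg_finset w t s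
  have hle : T.toSubmodule ≤ (degSub w B hw c).map π.toLinearMap := by
    rw [← ht, Submodule.span_le]
    intro z hz
    exact ⟨s z, hc z (Finset.mem_coe.mp hz), hs z⟩
  refine ⟨c, fun x => ?_⟩
  obtain ⟨N, hN⟩ := hN x
  obtain ⟨z, hz, hz'⟩ := hle hN
  refine ⟨((y₀ ^ N : Base B) : MvPolynomial σ ℂ), (y₀ ^ N).2,
    fun e => pow_ne_zero N hy₀0 (Subtype.ext e), z, hz, ?_⟩
  rw [← Ideal.Quotient.eq]
  have h1 : π ((y₀ ^ N) • x) = π z := by
    rw [map_smul]
    exact hz'.symm
  exact h1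

end Fin

/-- An element of a minimal prime over `𝔟` has a power in `𝔟`, up to a factor outside the prime. -/
theorem exists_mul_pow_mem {A : Type*} [CommRing A] {𝔟 q : Ideal A} (hmin : q ∈ 𝔟.minimalPrimes)
    {x : A} (hx : x ∈ q) : ∃ h ∉ q, ∃ e : ℕ, h * x ^ e ∈ 𝔟 := by
  have : q.IsPrime := hmin.1.1
  have h1 := IsLocalization.AtPrime.radical_map_of_mem_minimalPrimes
    (A := Localization.AtPrime q) q 𝔟 hmin
  have h2 : algebraMap A (Localization.AtPrime q) x ∈
      (𝔟.map (algebraMap A (Localization.AtPrime q))).radical := by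
    rw [h1]
    exact Ideal.mem_map_of_mem _ hx
  obtain ⟨n, hn⟩ := h2
  rw [IsLocalization.mem_map_algebraMap_iff (M := q.primeCompl)] at hn
  obtain ⟨⟨a, b⟩, hn⟩ := hn
  rw [← map_pow, ← map_mul, IsLocalization.eq_iff_exists q.primeCompl] at hn
  obtain ⟨t, ht⟩ := hn
  refine ⟨t * b, (t * b).2, n, ?_⟩
  have : (t : A) * b * x ^ n = t * a := by
    rw [← ht]
    ring
  rw [this]
  exact 𝔟.mul_mem_left _ a.2

/-- The spanning statement at a minimal prime over generators of high order. -/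
theorem exists_good_jet [Fintype σ] [DecidableEq σ]
    (D : σ → Derivation ℂ (MvPolynomial σ ℂ) (MvPolynomial σ ℂ)) (hw : ∀ i ∈ B, w i = 0)
    {v : σ → ℝ} (hv : ∀ i, 0 ≤ v i) {β : ℝ} (hβ0 : 0 < β) (hβ : ∀ i, β ≤ v i)
    {q : Ideal (MvPolynomial σ ℂ)} {G : Set (MvPolynomial σ ℂ)}
    (hmin : q ∈ (Ideal.span G).minimalPrimes) {s0 : ℝ} (hs0 : 0 < s0)
    (hG : ∀ g ∈ G, ∃ a b : ℝ, Deg w a g ∧ InJet D v q b g ∧ s0 * a ≤ b)
    (halg : ∀ l ∉ B, ∃ f ∈ q, f ≠ 0 ∧ f.vars ⊆ insert l B) :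
    ∃ c, ∀ H x, Good w B (c + H) (jet D v hv q (s0 * H)) x := by
  classical
  have hq : q.IsPrime := hmin.1.1
  have hGq : ∀ g ∈ G, g ∈ q := fun g hg => hmin.1.2 (Ideal.subset_span hg)
  have h1 : ∀ l, ∃ h ∉ q, l ∉ B → ∃ f, h * f ∈ Ideal.span G ∧ f ≠ 0 ∧ f.vars ⊆ insert l B := by
    intro l
    by_cases hl : l ∈ B
    · exact ⟨1, (Ideal.ne_top_iff_one q).mp hq.ne_top, fun h => absurd hl h⟩
    · obtain ⟨f, hf, hf0, hfv⟩ := halg l hl
      obtain ⟨h, hh, e, he⟩ := exists_mul_pow_mem hmin hf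
      exact ⟨h, hh, fun _ => ⟨f ^ e, he, pow_ne_zero _ hf0, (vars_pow f e).trans hfv⟩⟩
  choose hh hhq hhf using h1
  set h := ∏ l, hh l with hdef
  have hhq' : h ∉ q := by
    intro hm
    obtain ⟨l, _, hl⟩ := Ideal.IsPrime.prod_mem_iff.mp hm
    exact hhq l hl
  obtain ⟨c, hc⟩ := exists_good hw ((Ideal.span G).colon {h}) (by
    intro l hl
    obtain ⟨f, hf, hf0, hfv⟩ := hhf l hl
    refine ⟨f, ?_, hf0, hfv⟩
    rw [Submodule.mem_colon_singleton, smul_eq_mul, hdef,
      ← Finset.prod_erase_mul _ _ (Finset.mem_univ l), mul_comm f, mul_assoc]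
    exact Ideal.mul_mem_left _ _ hf)
  refine ⟨c, ?_⟩
  have key : ∀ n : ℕ, ∀ H, s0 * H ≤ n * β → ∀ x, Good w B (c + H) (jet D v hv q (s0 * H)) x := by
    intro n
    induction n with
    | zero =>
      intro H hH x
      apply good_of_mem
      rw [jet_of_nonpos hv (by simpa using hH)]
      exact Submodule.mem_top
    | succ n ih =>
      intro H hH x
      by_cases hH0 : H ≤ 0
      · apply good_of_mem
        rw [jet_of_nonpos hv (mul_nonpos_of_nonneg_of_nonpos hs0.le hH0)]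
        exact Submodule.mem_top
      have hspan : ∀ z ∈ Ideal.span G, ∀ r,
          Good w B (c + H) (jet D v hv q (s0 * H)) (r * z) := by
        intro z hz
        induction hz using Submodule.span_induction with
        | mem g hg =>
          intro r
          obtain ⟨a, b, ha, hb, hab⟩ := hG g hg
          have hb' : InJet D v q (max b β) g := by
            rcases le_total b β with h | h
            · rw [max_eq_right h]
              exact inJet_of_mem hv hβ (hGq g hg)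
            · rw [max_eq_left h]
              exact hb
          have e1 : s0 * (H - max b β / s0) = s0 * H - max b β := by
            field_simp
          have h2 := ih (H - max b β / s0) (by
            rw [e1]
            have := le_max_right b β
            push_cast at hH
            linarith) r
          have h3 := h2.mul_gen ha hb'
          rw [e1, sub_add_cancel] at h3
          refine h3.mono ?_
          have h4 : a ≤ max b β / s0 := by
            rw [le_div_iff₀ hs0]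
            have := le_max_left b β
            linarith
          linarith
        | zero => intro r; exact good_of_mem (by simp)
        | add z z' _ _ hz hz' => intro r; rw [mul_add]; exact (hz r).add hw (hz' r)
        | smul a z _ hz => intro r; rw [smul_eq_mul, ← mul_assoc]; exact hz _
      obtain ⟨u, hu, hu0, y, hy, hm⟩ := hc x
      rw [Submodule.mem_colon_singleton, smul_eq_mul] at hm
      obtain ⟨h', u', hu', hu0', hm'⟩ := exists_inv q halg hhq' (n + 1)
      have hm'' : h * h' - u' ∈ jet D v hv q (s0 * H) :=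
        jet_anti hv hH (pow_le_jet hv hβ (n + 1) hm')
      refine Good.of_mul hu hu0 (Good.of_mul hu' hu0' ?_)
      have e2 : u' * (u * x) =
          (h' * ((u * x - y) * h) + u' * y) + (-(u * x - y)) * (h * h' - u') := by ring
      rw [e2]
      refine Good.add hw (Good.add hw (hspan _ hm h') (good_of_deg ?_))
        (good_of_mem (Ideal.mul_mem_left _ _ hm''))
      exact (hy.base_mul hw hu').mono (by linarith)
  intro H x
  obtain ⟨n, hn⟩ := exists_nat_ge (s0 * H / β)
  exact key n H (by rwa [div_le_iff₀ hβ0] at hn) x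

end Vale.Agent.P021Z.Mult
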