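import Mathlib.LinearAlgebra.Dimension.StrongRankCondition
import Mathlib.LinearAlgebra.FreeModule.StrongRankCondition
import Mathlib.Data.Finsupp.Multiset
import Mathlib.Data.Fintype.BigOperators
import Mathlib.Topology.Algebra.Monoid
import Mathlib.Topology.Instances.Real.Lemmas
import Mathlib.Algebra.Order.Floor.Semiring
import Vale.Agent.P021Z.Mult.Span

/-! The multiplicity estimate at a minimal prime over generators of high order. -/

namespace Vale.Agent.P021Z.Mult

open MvPolynomial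

variable {σ : Type*} [Fintype σ] [DecidableEq σ]

/-- Exponent vectors with `γ i < n i` on `I` and `γ i = 0` off `I`. -/
noncomputable def box (I : Finset σ) (n : σ → ℕ) : Finset (σ → ℕ) :=
  Fintype.piFinset fun i => if i ∈ I then Finset.range (n i) else {0}

theorem card_box (I : Finset σ) (n : σ → ℕ) : (box I n).card = ∏ i ∈ I, n i := by
  rw [box, Fintype.card_piFinset]
  have : ∀ i, (if i ∈ I then Finset.range (n i) else {0}).card = if i ∈ I then n i else 1 := by
    intro i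
    split_ifs <;> simp
  simp_rw [this]
  rw [Finset.prod_ite_mem, Finset.univ_inter]

theorem mem_box {I : Finset σ} {n : σ → ℕ} {γ : σ → ℕ} :
    γ ∈ box I n ↔ (∀ i ∈ I, γ i < n i) ∧ ∀ i ∉ I, γ i = 0 := by
  rw [box, Fintype.mem_piFinset]
  constructor
  · intro h
    refine ⟨fun i hi => ?_, fun i hi => ?_⟩
    · simpa [hi] using h i
    · simpa [hi] using h i
  · rintro ⟨h1, h2⟩ i
    by_cases hi : i ∈ I
    · simpa [hi] using h1 i hi
    · simpa [hi] using h2 i hi

/-- The multiset of an exponent vector. -/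
noncomputable def msOf (γ : σ → ℕ) : Multiset σ :=
  Finsupp.toMultiset (Finsupp.equivFunOnFinite.symm γ)

theorem count_msOf (γ : σ → ℕ) (i : σ) : (msOf γ).count i = γ i := by
  simp [msOf]

theorem msOf_injective : Function.Injective (msOf : (σ → ℕ) → Multiset σ) := by
  intro γ γ' h
  funext i
  rw [← count_msOf γ i, h, count_msOf]

theorem sum_msOf (v : σ → ℝ) (γ : σ → ℕ) : ((msOf γ).map v).sum = ∑ i, (γ i : ℝ) * v i := by
  rw [Finset.sum_multiset_map_count]
  rw [Finset.sum_subset (Finset.subset_univ _)]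
  · refine Finset.sum_congr rfl fun i _ => ?_
    rw [count_msOf, nsmul_eq_mul]
  · intro i _ hi
    rw [Multiset.mem_toFinset] at hi
    rw [Multiset.count_eq_zero_of_notMem hi, zero_smul]

/-- The weights with the variables of `B` set to weight zero. -/
def offB (B : Finset σ) (w : σ → ℝ) : σ → ℝ := fun i => if i ∈ B then 0 else w i

theorem le_weight_offB {B : Finset σ} {w : σ → ℝ} (hw : ∀ i, 0 ≤ w i) (α : σ →₀ ℕ) {l : σ}
    (hl : l ∉ B) : (α l : ℝ) * w l ≤ Finsupp.weight (offB B w) α := by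
  rw [Finsupp.weight_apply, Finsupp.sum_fintype _ _ (by simp)]
  have h : ∀ i ∈ (Finset.univ : Finset σ), 0 ≤ α i • offB B w i := by
    intro i _
    refine nsmul_nonneg ?_ _
    unfold offB
    split_ifs
    · exact le_rfl
    · exact hw i
  refine le_trans (le_of_eq ?_) (Finset.single_le_sum h (Finset.mem_univ l))
  simp [offB, hl]

theorem weight_offB_le {B : Finset σ} {w : σ → ℝ} (hw : ∀ i, 0 ≤ w i) (α : σ →₀ ℕ) :
    Finsupp.weight (offB B w) α ≤ Finsupp.weight w α := by
  rw [Finsupp.weight_apply, Finsupp.weight_apply, Finsupp.sum_fintype _ _ (by simp),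
    Finsupp.sum_fintype _ _ (by simp)]
  refine Finset.sum_le_sum fun i _ => nsmul_le_nsmul_right ?_ _
  unfold offB
  split_ifs
  · exact hw i
  · exact le_rfl

/-- The monomials in a box span the polynomials of bounded weight. -/
theorem mem_span_box {B : Finset σ} {w : σ → ℝ} (hw : ∀ i, 0 < w i) {a : ℝ}
    {f : MvPolynomial σ ℂ} (hf : Deg (offB B w) a f) :
    f ∈ Submodule.span (Base B)
      (((box Bᶜ fun l => ⌊a / w l⌋₊ + 1).image fun γ =>
        monomial (Finsupp.equivFunOnFinite.symm γ) (1 : ℂ) : Finset (MvPolynomial σ ℂ)) :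
          Set (MvPolynomial σ ℂ)) := by
  classical
  rw [f.as_sum]
  refine Submodule.sum_mem _ fun α hα => ?_
  have hu : monomial (α.filter (· ∈ B)) (coeff α f) ∈ Base B := by
    rw [mem_supported]
    intro i hi
    obtain ⟨d, hd, hi'⟩ := (mem_vars_iff_mem_support i).mp (Finset.mem_coe.mp hi)
    have := Finset.mem_singleton.mp (support_monomial_subset hd)
    rw [this, Finsupp.support_filter, Finset.mem_filter] at hi'
    exact Finset.mem_coe.mpr hi'.2
  have e : monomial α (coeff α f) =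
      (⟨_, hu⟩ : Base B) • monomial (α.filter (· ∉ B)) (1 : ℂ) := by
    change _ = monomial (α.filter (· ∈ B)) (coeff α f) * monomial (α.filter (· ∉ B)) (1 : ℂ)
    rw [monomial_mul, mul_one, Finsupp.filter_add_filter_not]
  rw [e]
  refine Submodule.smul_mem _ _ (Submodule.subset_span ?_)
  rw [Finset.mem_coe, Finset.mem_image]
  refine ⟨α.filter (· ∉ B), ?_, by simp⟩
  rw [mem_box]
  refine ⟨fun l hl => ?_, fun l hl => ?_⟩
  · have hl' : l ∉ B := Finset.mem_compl.mp hl
    rw [Finsupp.filter_apply, if_pos hl', Nat.lt_succ_iff]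
    apply Nat.le_floor
    rw [le_div_iff₀ (hw l)]
    exact (le_weight_offB (fun i => (hw i).le) α hl').trans (hf α hα)
  · have hl' : l ∈ B := by simpa using hl
    rw [Finsupp.filter_apply, if_neg (not_not.mpr hl')]

/-- The rank count: a box of transversal monomials against a box of spanning monomials. -/
theorem card_le_of_good (D : σ → Derivation ℂ (MvPolynomial σ ℂ) (MvPolynomial σ ℂ))
    {w v : σ → ℝ} (hw : ∀ i, 0 < w i) (hv : ∀ i, 0 ≤ v i) {q : Ideal (MvPolynomial σ ℂ)}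
    [q.IsPrime] {B : Finset σ} (hB : ∀ f ∈ q, f.vars ⊆ B → f = 0) {I : Finset σ}
    {g : σ → MvPolynomial σ ℂ} (hg : ∀ i ∈ I, g i ∈ q) (hd : ∀ i ∈ I, D i (g i) ∉ q)
    (hoff : ∀ i ∈ I, ∀ k ∈ I, i ≠ k → D i (g k) ∈ q) {a b : ℝ}
    (hgood : ∀ x, Good (offB B w) B a (jet D v hv q b) x) (n : σ → ℕ)
    (hn : ∀ γ ∈ box I n, ∑ i, (γ i : ℝ) * v i < b) :
    ∏ i ∈ I, n i ≤ ∏ l ∈ Bᶜ, (⌊a / w l⌋₊ + 1) := by
  classical
  choose u hu hu0 y hy hm using hgood
  set z : (σ → ℕ) → MvPolynomial σ ℂ := fun γ => ((msOf γ).map g).prod with hz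
  have hli : LinearIndependent (Base B) fun γ : box I n => y (z γ) := by
    rw [Fintype.linearIndependent_iff]
    intro c hc γ₀
    set r : (σ → ℕ) → MvPolynomial σ ℂ :=
      fun γ => if h : γ ∈ box I n then (c ⟨γ, h⟩ : MvPolynomial σ ℂ) * u (z γ) else 0 with hr
    have hrB : ∀ γ, r γ ∈ Base B := by
      intro γ
      simp only [hr]
      split_ifs with h
      · exact (Base B).mul_mem (c ⟨γ, h⟩).2 (hu _)
      · exact (Base B).zero_mem
    have hsum : ∑ γ ∈ box I n, r γ * z γ ∈ jet D v hv q b := by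
      have e : ∑ γ ∈ box I n, r γ * z γ =
          ∑ γ : box I n, (c γ : MvPolynomial σ ℂ) * (u (z γ) * z γ - y (z γ)) := by
        have hc' : ∑ γ : box I n, (c γ : MvPolynomial σ ℂ) * y (z γ) = 0 := hc
        simp_rw [mul_sub]
        rw [Finset.sum_sub_distrib, hc', sub_zero, ← Finset.sum_coe_sort]
        refine Finset.sum_congr rfl fun γ _ => ?_
        simp only [hr, dif_pos γ.2, mul_assoc]
      rw [e]
      exact Submodule.sum_mem _ fun γ _ => Ideal.mul_mem_left _ _ (hm _)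
    have h0 := coeff_eq_zero_of_inJet (D := D) (v := v) (q := q) (I := (I : Set σ)) (g := g)
      hg hd hoff (box I n) msOf msOf_injective.injOn (b := b)
      (by
        intro γ hγ i hi
        by_contra hiI
        have h1 := (mem_box.mp hγ).2 i hiI
        rw [← count_msOf γ i] at h1
        exact (Multiset.count_eq_zero.mp h1) hi)
      (by
        intro γ hγ
        rw [sum_msOf]
        exact hn γ hγ)
      r (fun γ _ hq => hB _ hq (Finset.coe_subset.mp (mem_supported.mp (hrB γ)))) hsum γ₀ γ₀.2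
    simp only [hr, dif_pos γ₀.2] at h0
    exact Subtype.ext ((mul_eq_zero.mp h0).resolve_right (hu0 _))
  have h1 := linearIndependent_le_span_aux' _ hli
    (((box Bᶜ fun l => ⌊a / w l⌋₊ + 1).image fun γ =>
        monomial (Finsupp.equivFunOnFinite.symm γ) (1 : ℂ) : Finset (MvPolynomial σ ℂ)) :
          Set (MvPolynomial σ ℂ))
    (by rintro _ ⟨γ, rfl⟩; exact mem_span_box hw (hy _))
  rw [Fintype.card_coe, card_box] at h1
  refine h1.trans ?_
  simp only [Finset.coe_sort_coe, Fintype.card_coe]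
  exact Finset.card_image_le.trans (le_of_eq (card_box _ _))

/-- The multiplicity estimate. -/
theorem mult (D : σ → Derivation ℂ (MvPolynomial σ ℂ) (MvPolynomial σ ℂ))
    (w v : σ → ℝ) (hw : ∀ i, 0 < w i) (hv : ∀ i, 0 < v i) (q : Ideal (MvPolynomial σ ℂ))
    (G : Set (MvPolynomial σ ℂ)) (hmin : q ∈ (Ideal.span G).minimalPrimes) (s0 : ℝ)
    (hs0 : 0 < s0)
    (hG : ∀ g ∈ G, ∃ a b : ℝ, (∀ α ∈ g.support, Finsupp.weight w α ≤ a) ∧
      (∀ l : List σ, (l.map v).sum < b → dword D l g ∈ q) ∧ s0 * a ≤ b)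
    (B : Finset σ) (hB : ∀ f ∈ q, f.vars ⊆ B → f = 0)
    (halg : ∀ l ∉ B, ∃ f ∈ q, f ≠ 0 ∧ f.vars ⊆ insert l B)
    (I : Finset σ) (hI : I.card = Bᶜ.card) (g : σ → MvPolynomial σ ℂ)
    (hg : ∀ i ∈ I, g i ∈ q) (hd : ∀ i ∈ I, D i (g i) ∉ q)
    (hoff : ∀ i ∈ I, ∀ k ∈ I, i ≠ k → D i (g k) ∈ q) :
    s0 ^ I.card * ∏ l ∈ Bᶜ, w l ≤ (I.card : ℝ) ^ I.card * ∏ i ∈ I, v i := by
  classical
  have hq : q.IsPrime := hmin.1.1
  rcases I.eq_empty_or_nonempty with hI0 | hI0
  · have : Bᶜ = ∅ := Finset.card_eq_zero.mp (by rw [← hI, hI0, Finset.card_empty])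
    simp [hI0, this]
  have hcpos : (0 : ℝ) < I.card := Nat.cast_pos.mpr hI0.card_pos
  obtain ⟨i₀, -, hi₀⟩ := Finset.exists_min_image Finset.univ v ⟨hI0.choose, Finset.mem_univ _⟩
  obtain ⟨c, hc⟩ := exists_good_jet (w := offB B w) (B := B) D (fun i hi => by simp [offB, hi])
    (fun i => (hv i).le) (hv i₀) (fun i => hi₀ i (Finset.mem_univ _)) hmin hs0
    (fun f hf => by
      obtain ⟨a, b, h1, h2, h3⟩ := hG f hf
      exact ⟨a, b, fun α hα => (weight_offB_le (fun i => (hw i).le) α).trans (h1 α hα), h2, h3⟩)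
    halg
  have key : ∀ δ : ℝ, 0 < δ →
      ∏ i ∈ I, s0 / (I.card * v i) ≤ ∏ l ∈ Bᶜ, ((|c| * δ + 1) / w l + δ) := by
    intro δ hδ
    have h1 := card_le_of_good D hw (fun i => (hv i).le) hB hg hd hoff
      (fun x => (hc δ⁻¹ x).mono (a' := |c| + δ⁻¹) (by linarith [le_abs_self c]))
      (fun i => ⌈s0 * δ⁻¹ / (I.card * v i)⌉₊) (by
        intro γ hγ
        obtain ⟨h1, h2⟩ := mem_box.mp hγ
        rw [← Finset.sum_subset (Finset.subset_univ I) (fun i _ hi => by simp [h2 i hi])]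
        have h3 : ∑ _i ∈ I, s0 * δ⁻¹ / I.card = s0 * δ⁻¹ := by
          rw [Finset.sum_const, nsmul_eq_mul]
          field_simp
        rw [← h3]
        refine Finset.sum_lt_sum_of_nonempty hI0 fun i hi => ?_
        have h4 := Nat.lt_ceil.mp (h1 i hi)
        rw [lt_div_iff₀ (mul_pos hcpos (hv i))] at h4
        rw [lt_div_iff₀ hcpos]
        linarith)
    have h2 : ∏ i ∈ I, (s0 * δ⁻¹ / (I.card * v i)) ≤ ∏ l ∈ Bᶜ, ((|c| + δ⁻¹) / w l + 1) := by
      calc ∏ i ∈ I, (s0 * δ⁻¹ / (I.card * v i))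
          ≤ ∏ i ∈ I, ((⌈s0 * δ⁻¹ / (I.card * v i)⌉₊ : ℕ) : ℝ) :=
            Finset.prod_le_prod (fun i _ => by have := hv i; positivity)
              fun i _ => Nat.le_ceil _
        _ ≤ ∏ l ∈ Bᶜ, ((⌊(|c| + δ⁻¹) / w l⌋₊ + 1 : ℕ) : ℝ) := by exact_mod_cast h1
        _ ≤ _ := by
            refine Finset.prod_le_prod (fun l _ => by positivity) fun l _ => ?_
            push_cast
            have := hw l
            exact add_le_add_left (Nat.floor_le (by positivity)) _
    have e1 : ∏ i ∈ I, s0 / (I.card * v i) =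
        δ ^ I.card * ∏ i ∈ I, (s0 * δ⁻¹ / (I.card * v i)) := by
      rw [← Finset.prod_const, ← Finset.prod_mul_distrib]
      refine Finset.prod_congr rfl fun i _ => ?_
      field_simp
    have e2 : ∏ l ∈ Bᶜ, ((|c| * δ + 1) / w l + δ) =
        δ ^ I.card * ∏ l ∈ Bᶜ, ((|c| + δ⁻¹) / w l + 1) := by
      rw [hI, ← Finset.prod_const, ← Finset.prod_mul_distrib]
      refine Finset.prod_congr rfl fun l _ => ?_
      field_simp
    rw [e1, e2]
    exact mul_le_mul_of_nonneg_left h2 (by positivity)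
  have hcont : Continuous fun δ : ℝ => ∏ l ∈ Bᶜ, ((|c| * δ + 1) / w l + δ) :=
    continuous_finsetProd _ fun l _ => by fun_prop
  have hlim : ∏ i ∈ I, s0 / (I.card * v i) ≤ ∏ l ∈ Bᶜ, ((|c| * 0 + 1) / w l + 0) :=
    ge_of_tendsto ((hcont.tendsto 0).mono_left (nhdsWithin_le_nhds (s := Set.Ioi 0)))
      (eventually_nhdsWithin_of_forall key)
  simp only [mul_zero, zero_add, add_zero, Finset.prod_div_distrib, Finset.prod_const,
    Finset.prod_mul_distrib, one_pow] at hlim
  rw [div_le_div_iff₀ (mul_pos (pow_pos hcpos _) (Finset.prod_pos fun i _ => hv i))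
    (Finset.prod_pos fun l _ => hw l), one_mul] at hlim
  exact hlim

end Vale.Agent.P021Z.Mult
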